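import Vale.Agent.P281.H64.TK.Defs

/-!
# P281 (helper399): the quotient `E / Γ`, with sheets of the trivial group
-/

open Set Filter Metric
open scoped Topology ContDiff ComplexConjugate

set_option linter.unusedSectionVars false

noncomputable section

namespace Vale.Agent.P281.H399.QT

open Vale.Agent.P281.H64 (Cm)
open Vale.Agent.P281.H64.TK

/-- the trivial group -/
def One1 : Type := Unit

instance : Group One1 := inferInstanceAs (Group Unit)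
instance : Subsingleton One1 := inferInstanceAs (Subsingleton Unit)
instance : Inhabited One1 := ⟨1⟩

/-- the space of orbits -/
def Qs (Γ E : Type) [Group Γ] [MulAction Γ E] : Type := Quotient (MulAction.orbitRel Γ E)

section top
variable {Γ E : Type} [Group Γ] [MulAction Γ E]

instance : MulAction One1 (Qs Γ E) where
  smul _ x := x
  one_smul _ := rfl
  mul_smul _ _ _ := rfl

theorem one_act (γ : One1) (m : Qs Γ E) : γ • m = m := rfl

/-- the projection -/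
def pj (Γ : Type) {E : Type} [Group Γ] [MulAction Γ E] (e : E) : Qs Γ E :=
  Quotient.mk (MulAction.orbitRel Γ E) e

theorem pj_surj : Function.Surjective (pj Γ : E → Qs Γ E) := Quotient.exists_rep

theorem pj_eq {e e' : E} : pj Γ e = pj Γ e' ↔ ∃ γ : Γ, γ • e' = e :=
  Quotient.eq.trans (by rw [MulAction.orbitRel_apply, MulAction.mem_orbit_iff])

theorem pj_smul (γ : Γ) (e : E) : pj Γ (γ • e) = pj Γ e := pj_eq.2 ⟨γ, rfl⟩

variable [TopologicalSpace E]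

instance : TopologicalSpace (Qs Γ E) :=
  inferInstanceAs (TopologicalSpace (Quotient (MulAction.orbitRel Γ E)))

instance : ContinuousConstSMul One1 (Qs Γ E) := ⟨fun _ => continuous_id⟩

theorem continuous_pj : Continuous (pj Γ : E → Qs Γ E) := continuous_quotient_mk'

theorem isQuotientMap_pj : Topology.IsQuotientMap (pj Γ : E → Qs Γ E) := isQuotientMap_quotient_mk'

instance [PreconnectedSpace E] : PreconnectedSpace (Qs Γ E) :=
  preconnectedSpace_iff_univ.2 (by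
    rw [← pj_surj.range_eq]
    exact isPreconnected_range continuous_pj)

instance [Nonempty E] : Nonempty (Qs Γ E) := ⟨pj Γ (Classical.arbitrary E)⟩

variable [ContinuousConstSMul Γ E]

theorem isOpenMap_pj : IsOpenMap (pj Γ : E → Qs Γ E) := isOpenMap_quotient_mk'_mul

theorem map_pj (e : E) : Filter.map (pj Γ) (𝓝 e) = 𝓝 (pj Γ e : Qs Γ E) :=
  le_antisymm continuous_pj.continuousAt (isOpenMap_pj.nhds_le e)

end top

section sheets
variable {d : ℕ} {Γ E : Type} [TopologicalSpace E] [Group Γ] [MulAction Γ E]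
  [ContinuousConstSMul Γ E]

/-- **the quotient of the sheets** -/
def quo (S : Sheets d E Γ) : Sheets d (Qs Γ E) One1 where
  N := S.N
  σ i z := pj Γ (S.σ i z)
  map_nhds i z hz := by
    rw [← map_pj, ← S.map_nhds i z hz, Filter.map_map]
    rfl
  inj i z hz w hw γ h := by
    obtain ⟨γ', h'⟩ := pj_eq.1 (h : pj Γ (S.σ i z) = pj Γ (S.σ i w))
    exact ⟨Subsingleton.elim _ _, ((S.inj i w hw z hz γ' h').2).symm⟩
  cover m := by
    obtain ⟨e, rfl⟩ := pj_surj m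
    obtain ⟨γ, i, z, hz, h⟩ := S.cover e
    exact ⟨1, i, z, hz, by rw [one_act, ← h, pj_smul]⟩
  closed i r hr := by
    rw [← isQuotientMap_pj.isClosed_preimage]
    convert S.closed i r hr using 1
    ext e
    constructor
    · rintro ⟨γ₀, z, hz, h⟩
      obtain ⟨γ, h'⟩ := pj_eq.1 (h : pj Γ (S.σ i z) = pj Γ e)
      exact ⟨γ⁻¹, z, hz, by rw [← h', inv_smul_smul]⟩
    · rintro ⟨γ, z, hz, h⟩
      exact ⟨1, z, hz, by rw [one_act, ← h, pj_smul]⟩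
  hol i j z hz w hw γ h := by
    obtain ⟨γ', h'⟩ := pj_eq.1 (h : pj Γ (S.σ i z) = pj Γ (S.σ j w))
    obtain ⟨θ, h1, h2, h3⟩ := S.hol i j z hz w hw γ' h'.symm
    exact ⟨θ, h1, h2, h3.mono fun u hu => by rw [hu, pj_smul, one_act]⟩

theorem isOpen_img (S : Sheets d E Γ) (i : Fin S.N) {U : Set (Cm d)} (hU : IsOpen U)
    (hU3 : U ⊆ ball 0 3) : IsOpen ((fun z => pj Γ (S.σ i z)) '' U) := by
  rw [isOpen_iff_mem_nhds]
  rintro _ ⟨z, hz, rfl⟩
  have h := (quo S).map_nhds i z (hU3 hz)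
  show _ ∈ 𝓝 (pj Γ (S.σ i z))
  have h' : Filter.map (fun z => pj Γ (S.σ i z)) (𝓝 z) = 𝓝 (pj Γ (S.σ i z)) := h
  rw [← h']
  exact Filter.image_mem_map (hU.mem_nhds hz)

/-- the quotient is Hausdorff -/
theorem t2_quo (S : Sheets d E Γ) : T2Space (Qs Γ E) := by
  refine ⟨fun m m' hne => ?_⟩
  obtain ⟨γ₀, i, z, hz, h⟩ := (quo S).cover m
  have hm : pj Γ (S.σ i z) = m := h
  have hz3 : z ∈ ball (0 : Cm d) 3 := by
    rw [mem_ball_zero_iff]
    linarith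
  have hb : ball (0 : Cm d) 1 ⊆ ball 0 3 := ball_subset_ball (by norm_num)
  by_cases hc : ∃ z', ‖z'‖ ≤ 1 ∧ pj Γ (S.σ i z') = m'
  · obtain ⟨z', hz', hm'⟩ := hc
    have hz3' : z' ∈ ball (0 : Cm d) 3 := by
      rw [mem_ball_zero_iff]
      linarith
    have hzz : z ≠ z' := by
      rintro rfl
      exact hne (hm.symm.trans hm')
    obtain ⟨U, V, hU, hV, hzU, hzV, hUV⟩ := t2_separation hzz
    refine ⟨_, _, isOpen_img S i (hU.inter isOpen_ball) inter_subset_right,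
      isOpen_img S i (hV.inter isOpen_ball) inter_subset_right, ⟨z, ⟨hzU, hz3⟩, hm⟩,
      ⟨z', ⟨hzV, hz3'⟩, hm'⟩, ?_⟩
    rw [Set.disjoint_left]
    rintro _ ⟨u, hu, rfl⟩ ⟨v, hv, huv⟩
    have := ((quo S).inj i v hv.2 u hu.2 1 huv).2
    exact Set.disjoint_left.1 hUV hu.1 (this ▸ hv.1)
  · refine ⟨_, _, isOpen_img S i isOpen_ball hb, ((quo S).closed i 1 (by norm_num)).isOpen_compl,
      ⟨z, by rwa [mem_ball_zero_iff], hm⟩, ?_, ?_⟩
    · rintro ⟨γ₁, z', hz', h'⟩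
      exact hc ⟨z', hz', h'⟩
    · rw [Set.disjoint_left]
      rintro _ ⟨u, hu, rfl⟩ hv
      exact hv ⟨1, u, (mem_ball_zero_iff.1 hu).le, rfl⟩

/-- the group element is locally constant -/
theorem ev_lift (S : Sheets d E Γ) {A : Type*} [TopologicalSpace A] {a : A → E} {j : Fin S.N}
    {x : A} {z' : Cm d} (ha : ContinuousAt a x) (hz' : z' ∈ ball (0 : Cm d) 3) {θ : A → Cm d}
    (hθ : ContinuousAt θ x) (hθx : θ x = z')
    (hev : ∀ᶠ u in 𝓝 x, pj Γ (a u) = pj Γ (S.σ j (θ u))) :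
    ∃ γ : Γ, ∀ᶠ u in 𝓝 x, a u = γ • S.σ j (θ u) := by
  obtain ⟨γ, hγ⟩ := pj_eq.1 hev.self_of_nhds
  rw [hθx] at hγ
  refine ⟨γ, ?_⟩
  have h1 : (fun v => γ • S.σ j v) '' ball (0 : Cm d) 3 ∈ 𝓝 (a x) := by
    rw [← hγ]
    have h2 : Filter.map (fun e : E => γ • e) (𝓝 (S.σ j z')) = 𝓝 (γ • S.σ j z') :=
      (Homeomorph.smul γ).map_nhds_eq _
    rw [← h2, ← S.map_nhds j z' hz', Filter.map_map]
    exact Filter.image_mem_map (isOpen_ball.mem_nhds hz')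
  have h3 : ∀ᶠ u in 𝓝 x, θ u ∈ ball (0 : Cm d) 3 :=
    hθ (isOpen_ball.mem_nhds (by rw [hθx]; exact hz'))
  filter_upwards [ha h1, h3, hev] with u hu h4 h5
  obtain ⟨v, hv, e⟩ := hu
  obtain ⟨γ', h6⟩ := pj_eq.1 h5
  have e' : γ • S.σ j v = a u := e
  have h7 : (γ⁻¹ * γ') • S.σ j (θ u) = S.σ j v := by
    rw [mul_smul, h6, ← e', inv_smul_smul]
  have h8 := S.inj j (θ u) h4 v hv _ h7
  rw [← e', h8.2]

theorem kah_quo {S : Sheets d E Γ} {w : Fin S.N → Cm d → Matrix (Fin d) (Fin d) ℂ}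
    (h : Kah S w) : Kah (quo S) w where
  smooth := h.smooth
  posDef := h.posDef
  closed := h.closed
  change i j z hz z' hz' γ θ h1 h2 h3 := by
    have hc : ContinuousAt (S.σ i) z := (S.map_nhds i z hz).le
    obtain ⟨γ', h4⟩ := ev_lift S hc hz' h1.continuousAt h2 h3
    exact h.change i j z hz z' hz' γ' θ h1 h2 h4

end sheets

section fam
variable {p d : ℕ} {Γ E : Type} [TopologicalSpace E] [Group Γ] [MulAction Γ E]
  [ContinuousConstSMul Γ E]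

theorem map_pj2 {A : Type*} [TopologicalSpace A] (a : A) (e : E) :
    Filter.map (Prod.map id (pj Γ) : A × E → A × Qs Γ E) (𝓝 (a, e)) = 𝓝 (a, pj Γ e) := by
  rw [nhds_prod_eq, nhds_prod_eq]
  show Filter.map (fun q : A × E => (id q.1, pj Γ q.2)) _ = _
  rw [← Filter.prod_map_map_eq, Filter.map_id, map_pj]

/-- **the quotient of a family** -/
def fquo (𝓕 : Fam p d E Γ) : Fam p d (Qs Γ E) One1 where
  T := 𝓕.T
  isOpen := 𝓕.isOpen
  conn := 𝓕.conn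
  N := 𝓕.N
  σ i t z := pj Γ (𝓕.σ i t z)
  map_nhds i t ht z hz := by
    rw [← map_pj2, ← 𝓕.map_nhds i t ht z hz, Filter.map_map]
    rfl
  map_nhds' i t ht z hz := (quo (𝓕.at t ht)).map_nhds i z hz
  inj i t ht z hz w hw γ h := (quo (𝓕.at t ht)).inj i z hz w hw γ h
  cover t ht m := (quo (𝓕.at t ht)).cover m
  closed i t ht r hr := (quo (𝓕.at t ht)).closed i r hr
  closed' i r hr t ht m h := by
    obtain ⟨e, rfl⟩ := pj_surj m
    rw [← map_pj2, Filter.eventually_map]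
    refine (𝓕.closed' i r hr t ht e fun γ z hz he => h 1 z hz ?_).mono fun q hq γ z hz he => ?_
    · rw [one_act, ← he, pj_smul]
    · obtain ⟨γ', h'⟩ := pj_eq.1 (he : pj Γ (𝓕.σ i q.1 z) = pj Γ q.2)
      have h'' : γ' • q.2 = 𝓕.σ i q.1 z := h'
      exact hq γ'⁻¹ z hz (by rw [← h'', inv_smul_smul])
  hol i j t ht z hz w hw γ h := by
    obtain ⟨γ', h'⟩ := pj_eq.1 (h : pj Γ (𝓕.σ i t z) = pj Γ (𝓕.σ j t w))
    obtain ⟨θ, h1, h2, h3⟩ := 𝓕.hol i j t ht z hz w hw γ' h'.symm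
    exact ⟨θ, h1, h2, h3.mono fun q hq => by rw [hq, pj_smul, one_act]⟩
  smooth i j t ht s hs z hz w hw γ h := by
    obtain ⟨γ', h'⟩ := pj_eq.1 (h : pj Γ (𝓕.σ i t z) = pj Γ (𝓕.σ j s w))
    obtain ⟨ψ, h1, h2, h3, h4⟩ := 𝓕.smooth i j t ht s hs z hz w hw γ' h'.symm
    exact ⟨ψ, h1, h2, h3, h4.mono fun u hu => by rw [hu, pj_smul, one_act]⟩

theorem fquo_at (𝓕 : Fam p d E Γ) {t : Cm p} (ht : t ∈ 𝓕.T) :
    (fquo 𝓕).at t ht = quo (𝓕.at t ht) := rfl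

/-- the group element is locally constant, in a family -/
theorem ev_lift2 (𝓕 : Fam p d E Γ) {A : Type*} [TopologicalSpace A] {b : A → Cm p} {a : A → E}
    {j : Fin 𝓕.N} {x : A} {t : Cm p} (ht : t ∈ 𝓕.T) (hb : ContinuousAt b x) (hbx : b x = t)
    {z' : Cm d} (ha : ContinuousAt a x) (hz' : z' ∈ ball (0 : Cm d) 3) {θ : A → Cm d}
    (hθ : ContinuousAt θ x) (hθx : θ x = z')
    (hev : ∀ᶠ u in 𝓝 x, pj Γ (a u) = pj Γ (𝓕.σ j (b u) (θ u))) :
    ∃ γ : Γ, ∀ᶠ u in 𝓝 x, a u = γ • 𝓕.σ j (b u) (θ u) := by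
  obtain ⟨γ, hγ⟩ := pj_eq.1 hev.self_of_nhds
  rw [hθx, hbx] at hγ
  refine ⟨γ, ?_⟩
  have h1 : (fun q : Cm p × Cm d => (q.1, γ • 𝓕.σ j q.1 q.2)) '' (𝓕.T ×ˢ ball (0 : Cm d) 3) ∈
      𝓝 (b x, a x) := by
    rw [← hγ, hbx]
    have h2 : Filter.map (fun q : Cm p × E => (q.1, γ • q.2)) (𝓝 (t, 𝓕.σ j t z')) =
        𝓝 (t, γ • 𝓕.σ j t z') :=
      ((Homeomorph.refl (Cm p)).prodCongr (Homeomorph.smul γ)).map_nhds_eq _
    rw [← h2, ← 𝓕.map_nhds j t ht z' hz', Filter.map_map]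
    exact Filter.image_mem_map (prod_mem_nhds (𝓕.isOpen.mem_nhds ht) (isOpen_ball.mem_nhds hz'))
  have h3 : ∀ᶠ u in 𝓝 x, θ u ∈ ball (0 : Cm d) 3 :=
    hθ (isOpen_ball.mem_nhds (by rw [hθx]; exact hz'))
  filter_upwards [(hb.prodMk ha) h1, h3, hev] with u hu h4 h5
  obtain ⟨⟨s, v⟩, ⟨hs, hv⟩, e⟩ := hu
  obtain ⟨γ', h6⟩ := pj_eq.1 h5
  have e1 : s = b u := congrArg Prod.fst e
  have e2 : γ • 𝓕.σ j s v = a u := congrArg Prod.snd e
  rw [e1] at e2 hs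
  have h7 : (γ⁻¹ * γ') • 𝓕.σ j (b u) (θ u) = 𝓕.σ j (b u) v := by
    rw [mul_smul, h6, ← e2, inv_smul_smul]
  have h8 := 𝓕.inj j (b u) hs (θ u) h4 v hv _ h7
  rw [← e2, h8.2]

theorem kfam_quo {𝓕 : Fam p d E Γ}
    {W : Fin 𝓕.N → Cm p × Cm d → Matrix (Fin p ⊕ Fin d) (Fin p ⊕ Fin d) ℂ} (h : KFam 𝓕 W) :
    KFam (fquo 𝓕) W where
  smooth := h.smooth
  posDef := h.posDef
  closed := h.closed
  change i j t ht z hz z' hz' γ θ h1 h2 h3 := by
    have hc : ContinuousAt (fun q : Cm p × Cm d => 𝓕.σ i q.1 q.2) (t, z) := by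
      have h5 : Tendsto (fun q : Cm p × Cm d => (q.1, 𝓕.σ i q.1 q.2)) (𝓝 (t, z))
        (𝓝 (t, 𝓕.σ i t z)) := (𝓕.map_nhds i t ht z hz).le
      exact (continuous_snd.tendsto _).comp h5
    obtain ⟨γ', h4⟩ := ev_lift2 𝓕 (b := fun q : Cm p × Cm d => q.1) ht
      continuous_fst.continuousAt rfl hc hz' h1.continuousAt h2 h3
    exact h.change i j t ht z hz z' hz' γ' θ h1 h2 h4

end fam

end Vale.Agent.P281.H399.QT
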