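import Vale.Agent.P281.H399.QT.Quo
import Vale.Agent.P281.H603.TE.Cmp

/-!
# P281 (helper399): the quotient `E / Γ`: comparison of two manifolds; additive functions
-/

open Set Filter Metric
open scoped Topology ContDiff ComplexConjugate

set_option linter.unusedSectionVars false

noncomputable section

namespace Vale.Agent.P281.H399.QT

open Vale.Agent.P281.H64 (Cm)
open Vale.Agent.P281.H64.TK
open Vale.Agent.P281.H603.TE (Cmp)

section
variable {E Γ E' Γ' : Type} [TopologicalSpace E] [Group Γ] [MulAction Γ E]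
  [TopologicalSpace E'] [Group Γ'] [MulAction Γ' E']

/-- the map of the quotients -/
def qmap (τ : E ≃ₜ E') (ρ : Γ ≃* Γ') (h : ∀ γ e, τ (γ • e) = ρ γ • τ e) :
    Qs Γ E ≃ₜ Qs Γ' E' where
  toFun := Quotient.lift (fun e => pj Γ' (τ e)) fun a b hab => by
    obtain ⟨γ, hγ⟩ := pj_eq.1 (Quotient.sound hab : pj Γ a = pj Γ b)
    rw [← hγ, h, pj_smul]
  invFun := Quotient.lift (fun e => pj Γ (τ.symm e)) fun a b hab => by
    obtain ⟨γ, hγ⟩ := pj_eq.1 (Quotient.sound hab : pj Γ' a = pj Γ' b)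
    refine pj_eq.2 ⟨ρ.symm γ, τ.injective ?_⟩
    rw [h, ρ.apply_symm_apply, τ.apply_symm_apply, τ.apply_symm_apply, hγ]
  left_inv m := by
    obtain ⟨e, rfl⟩ := pj_surj m
    show pj Γ (τ.symm (τ e)) = pj Γ e
    rw [τ.symm_apply_apply]
  right_inv m := by
    obtain ⟨e, rfl⟩ := pj_surj m
    show pj Γ' (τ (τ.symm e)) = pj Γ' e
    rw [τ.apply_symm_apply]
  continuous_toFun := isQuotientMap_pj.continuous_iff.2 (continuous_pj.comp τ.continuous)
  continuous_invFun := isQuotientMap_pj.continuous_iff.2 (continuous_pj.comp τ.symm.continuous)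

variable {τ : E ≃ₜ E'} {ρ : Γ ≃* Γ'} {h : ∀ γ e, τ (γ • e) = ρ γ • τ e}

theorem qmap_pj (e : E) : qmap τ ρ h (pj Γ e) = pj Γ' (τ e) := rfl

theorem qmap_symm_pj (e : E') : (qmap τ ρ h).symm (pj Γ' e) = pj Γ (τ.symm e) := rfl

variable {d : ℕ} [ContinuousConstSMul Γ E] [ContinuousConstSMul Γ' E'] {S : Sheets d E Γ}
  {w : Fin S.N → Cm d → Matrix (Fin d) (Fin d) ℂ}
  {S' : Sheets d E' Γ'} {w' : Fin S'.N → Cm d → Matrix (Fin d) (Fin d) ℂ}

/-- **an isomorphism induces an isomorphism of the quotients** -/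
theorem cmp_quo (H : Cmp S w S' w' τ ρ) :
    Cmp (quo S) w (quo S') w' (qmap τ ρ H.eqv) (MulEquiv.refl One1) where
  eqv _ _ := rfl
  hol i j z hz v hv γ he := by
    have he' : pj Γ (S.σ i z) = pj Γ (τ.symm (S'.σ j v)) := he
    obtain ⟨γ', h'⟩ := pj_eq.1 he'
    obtain ⟨θ, h1, h2, h3, h4⟩ := H.hol i j z hz v hv γ' h'.symm
    refine ⟨θ, h1, h2, h3, h4.mono fun u hu => ?_⟩
    show pj Γ (S.σ i u) = pj Γ (τ.symm (S'.σ j (θ u)))
    rw [hu, pj_smul]
    rfl
  met i j z hz z' hz' γ θ h1 h2 h3 := by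
    have hc : ContinuousAt (S.σ i) z := (S.map_nhds i z hz).le
    obtain ⟨γ', h4⟩ := ev_lift (S'.pull τ ρ H.eqv) (j := j) hc hz' h1.continuousAt h2 h3
    exact H.met i j z hz z' hz' γ' θ h1 h2 h4

/-! ### additive functions -/

/-- the derivatives of an additive function are the coefficients of a closed holomorphic 1-form on
the quotient -/
theorem add_change {f : E → ℂ} {c : Γ → ℂ} (hf : Add S f c) {i j : Fin S.N} {z z' : Cm d}
    (hz : z ∈ ball (0 : Cm d) 3) (hz' : z' ∈ ball (0 : Cm d) 3) {θ : Cm d → Cm d}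
    (hθ : DifferentiableAt ℂ θ z) (hθz : θ z = z')
    (hev : ∀ᶠ u in 𝓝 z, (quo S).σ i u = (quo S).σ j (θ u)) :
    fderiv ℂ (fun z => f (S.σ i z)) z = (fderiv ℂ (fun z => f (S.σ j z)) z').comp
      (fderiv ℂ θ z) := by
  have hc : ContinuousAt (S.σ i) z := (S.map_nhds i z hz).le
  obtain ⟨γ, h4⟩ := ev_lift S (j := j) hc hz' hθ.continuousAt hθz hev
  have h5 : (fun z => f (S.σ i z)) =ᶠ[𝓝 z] fun u => f (S.σ j (θ u)) + c γ := by
    filter_upwards [h4] with u hu
    rw [hu, hf.add]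
  have h6 : DifferentiableAt ℂ (fun z => f (S.σ j z)) (θ z) := by
    rw [hθz]
    exact (hf.hol j).differentiableAt (isOpen_ball.mem_nhds hz')
  rw [h5.fderiv_eq, fderiv_add_const, ← hθz]
  exact fderiv_comp z h6 hθ

end

end Vale.Agent.P281.H399.QT
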